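import Vale.Agent.P352NA.MOM.R2

/-!
# P352NA, block RIG: step R1 and the row
-/

set_option linter.all false

open MeasureTheory Filter Topology Set
open scoped SchwartzMap ContDiff

namespace Vale.Agent.P352X.EB.NA.Mom

open Vale.Agent.P352 Vale.Agent.P352.GF Vale.Agent.P352.H246 Vale.Agent.P352X.Ap
open Ch0

noncomputable section

section ring

variable {E : Type*} [Semiring E] [Algebra ℂ E] {Y X A r : E} {t : ℂ}

/-- the product of the second order operators -/
def Pw (Y X A : E) : ℕ → List ℂ → E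
  | _, [] => 1
  | j, τ :: l => ((-1 : ℂ) • (Y * (1 + (2 * τ) • X)) + (4 * j * τ) • A) * Pw Y X A (j + 1) l

/-- the leading coefficient -/
def cw (t : ℂ) : ℕ → List ℂ → ℂ
  | _, [] => 1
  | j, τ :: l => 4 * j * (τ - t) * cw t (j + 1) l

theorem cw_zero {l : List ℂ} (h : t ∈ l) (j : ℕ) : cw t j l = 0 := by
  induction l generalizing j with
  | nil => simp at h
  | cons τ l ih =>
    rcases List.mem_cons.1 h with rfl | h
    · simp [cw]
    · simp [cw, ih h]

theorem cw_ne {l : List ℂ} (h : t ∉ l) (j : ℕ) : cw t (j + 1) l ≠ 0 := by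
  induction l generalizing j with
  | nil => simp [cw]
  | cons τ l ih =>
    rw [List.mem_cons, not_or] at h
    exact mul_ne_zero (mul_ne_zero (mul_ne_zero (by norm_num) (Nat.cast_ne_zero.2 (by omega)))
      (sub_ne_zero.2 (Ne.symm h.1))) (ih h.2 _)

variable (hY : Y * X = X * Y + (2 : ℂ) • A) (hX : Commute A X) (hA : Commute A Y)
  (h1 : r * (1 + (2 * t) • X) = 1) (h2 : (1 + (2 * t) • X) * r = 1)
include hY hX hA h1 h2

theorem com_r : Commute A r := by
  have e : A * (1 + (2 * t) • X) = (1 + (2 * t) • X) * A :=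
    ((Commute.one_right A).add_right (hX.smul_right _)).eq
  calc A * r = r * (1 + (2 * t) • X) * A * r := by rw [h1, one_mul]
    _ = r * A * ((1 + (2 * t) • X) * r) := by rw [mul_assoc r, ← e]; simp only [mul_assoc]
    _ = r * A := by rw [h2, mul_one]

theorem r_Y : r * Y = Y * r + (4 * t) • (r ^ 2 * A) := by
  have e : Y * (1 + (2 * t) • X) = (1 + (2 * t) • X) * Y + (4 * t) • A := by
    rw [mul_add, add_mul, mul_smul_comm, hY, smul_mul_assoc, mul_one, one_mul]
    module
  calc r * Y = r * (Y * (1 + (2 * t) • X)) * r := by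
        rw [mul_assoc, mul_assoc, h2, mul_one]
    _ = r * (1 + (2 * t) • X) * Y * r + (4 * t) • (r * (A * r)) := by
        rw [e, mul_add, add_mul, mul_smul_comm, smul_mul_assoc]; simp only [mul_assoc]
    _ = _ := by rw [h1, one_mul, (com_r hY hX hA h1 h2).eq, ← mul_assoc, sq]

theorem pow_Y (j : ℕ) : r ^ j * Y = Y * r ^ j + (4 * j * t) • (r ^ (j + 1) * A) := by
  induction j with
  | zero => simp
  | succ j ih =>
    have c := ((com_r hY hX hA h1 h2).pow_right j).eq
    rw [pow_succ' r j, mul_assoc, ih, mul_add, ← mul_assoc, r_Y hY hX hA h1 h2, add_mul,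
      smul_mul_assoc, mul_smul_comm, mul_assoc (r ^ 2), c, ← mul_assoc (r ^ 2), ← mul_assoc r,
      ← pow_add, ← pow_succ', ← pow_succ', mul_assoc, ← pow_succ', add_comm 2 j]
    push_cast
    module

theorem pow_T (j : ℕ) (τ : ℂ) : r ^ j * ((-1 : ℂ) • (Y * (1 + (2 * τ) • X)) + (4 * j * τ) • A) =
    Y * ((-1 : ℂ) • (r ^ j * (1 + (2 * τ) • X))) + (4 * j * (τ - t)) • (r ^ (j + 1) * A) := by
  have e : r ^ j * A = r ^ (j + 1) * A + (2 * t) • (r ^ (j + 1) * A * X) := by
    calc r ^ j * A = r ^ j * (r * (1 + (2 * t) • X)) * A := by rw [h1, mul_one]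
      _ = _ := by
        rw [← mul_assoc, ← pow_succ, mul_add, add_mul, mul_one, mul_smul_comm, smul_mul_assoc,
          mul_assoc, ← hX.eq, mul_assoc]
  rw [mul_add, mul_smul_comm, ← mul_assoc, pow_Y hY hX hA h1 h2, mul_smul_comm, e, add_mul,
    smul_mul_assoc, mul_add (r ^ (j + 1) * A), mul_one, mul_smul_comm, mul_smul_comm, mul_assoc Y]
  module

theorem pow_P (l : List ℂ) (j : ℕ) : ∃ Z, r ^ j * Pw Y X A j l =
    Y * Z + cw t j l • (r ^ (j + l.length) * A ^ l.length) := by
  induction l generalizing j with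
  | nil => exact ⟨0, by simp [Pw, cw]⟩
  | cons τ l ih =>
    obtain ⟨Z, hZ⟩ := ih (j + 1)
    have c := fun n => ((com_r hY hX hA h1 h2).pow_right n).eq
    refine ⟨(-1 : ℂ) • (r ^ j * (1 + (2 * τ) • X)) * Pw Y X A (j + 1) l +
      (4 * j * (τ - t)) • (A * Z), ?_⟩
    rw [Pw, cw, ← mul_assoc, pow_T hY hX hA h1 h2, add_mul, smul_mul_assoc (4 * j * (τ - t)), ← c,
      mul_assoc A, hZ, mul_add A, ← mul_assoc A, hA.eq, mul_smul_comm (cw t (j + 1) l),
      ← mul_assoc A, c, mul_assoc Y A, mul_assoc _ A, ← pow_succ', List.length_cons, mul_add Y,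
      mul_smul_comm (4 * j * (τ - t)), mul_assoc Y,
      show j + 1 + l.length = j + (l.length + 1) by omega]
    module

end ring

variable {B : Set V} {t : ℝ} {u : Fn}

/-- multiplication by `be` -/
def xE (B : Set V) : Module.End ℂ (DQ B) where
  toFun v := ⟨fun z => (be z : ℂ) * v.1 z, in_rmul smooth_be v.2⟩
  map_add' v w := Subtype.ext (funext fun x => mul_add _ _ _)
  map_smul' c v := Subtype.ext (funext fun x => mul_left_comm _ _ _)

/-- the wave operator -/
def yE (B : Set V) : Module.End ℂ (DQ B) :=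
  (2 : ℂ) • (dE B va * dE B vb) + (-1 : ℂ) • ∑ i, dE B (ex i) * dE B (ex i)

theorem yE_apply (v : DQ B) : (yE B v : Fn) = box v := funext fun x => by
  rw [box_eq (in_dc v.2).1, sub_eq_add_neg, ← neg_one_mul]
  simp only [Fin.sum_univ_two, yE]
  rfl

theorem dE_xE (h : V) : dE B h * xE B = xE B * dE B h + (be h : ℂ) • 1 :=
  LinearMap.ext fun v => Subtype.ext (funext fun x => by
    have := dv_mul ((smooth_cx smooth_be).differentiable (by simp) x)
      ((in_dc v.2).1.differentiable (by simp) x) h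
    rw [dv_be] at this
    exact this.trans (add_comm _ _))

theorem yE_xE : yE B * xE B = xE B * yE B + (2 : ℂ) • dE B va := by
  have a : dE B va * xE B = xE B * dE B va := by simpa using dE_xE (B := B) va
  have b : dE B vb * xE B = xE B * dE B vb + 1 := by simpa using dE_xE (B := B) vb
  have c : ∀ i, dE B (ex i) * xE B = xE B * dE B (ex i) := fun i => by
    simpa using dE_xE (B := B) (ex i)
  have d : ∀ i, dE B (ex i) * dE B (ex i) * xE B = xE B * (dE B (ex i) * dE B (ex i)) := fun i => by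
    rw [mul_assoc, c, ← mul_assoc, c, mul_assoc]
  rw [yE, add_mul, mul_add, smul_mul_assoc, smul_mul_assoc, mul_smul_comm, mul_smul_comm,
    Finset.sum_mul, Finset.mul_sum, mul_assoc, b, mul_add, ← mul_assoc, a, mul_assoc, mul_one]
  simp only [d]
  module

theorem a_xE : Commute (dE B va) (xE B) :=
  show dE B va * xE B = xE B * dE B va by simpa using dE_xE (B := B) va

theorem a_yE : Commute (dE B va) (yE B) :=
  ((dE_comm.mul_right dE_comm).smul_right _).add_right
    ((Commute.sum_right _ _ _ fun _ _ => dE_comm.mul_right dE_comm).smul_right _)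

theorem in_inv (h : ∀ z ∈ B, 0 < rh t z) (hu : In B u) :
    In B fun z => (((rh t z)⁻¹ : ℝ) : ℂ) * u z := by
  refine in_sub hu (dc_sw ⟨contDiff_iff_contDiffAt.2 fun z => ?_, hu.2.1.mul_left⟩)
    tsupport_mul_subset_right
  by_cases hz : z ∈ tsupport u
  · exact (Complex.ofRealCLM.contDiff.contDiffAt.comp z
      (Chn.sm_rh.contDiffAt.inv (h z (hu.2.2 hz)).ne')).mul (in_dc hu).1.contDiffAt
  · exact (contDiffAt_const (c := 0)).congr_of_eventuallyEq
      ((notMem_tsupport_iff_eventuallyEq.1 hz).mono fun y hy => by simp [hy])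

/-- division by the conformal factor -/
def rE (h : ∀ z ∈ B, 0 < rh t z) : Module.End ℂ (DQ B) where
  toFun v := ⟨fun z => (((rh t z)⁻¹ : ℝ) : ℂ) * v.1 z, in_inv h v.2⟩
  map_add' v w := Subtype.ext (funext fun x => mul_add _ _ _)
  map_smul' c v := Subtype.ext (funext fun x => mul_left_comm _ _ _)

theorem rho_apply (v : DQ B) (z : V) :
    ((1 + (2 * (t : ℂ)) • xE B) v : Fn) z = rh t z * v.1 z := by
  show v.1 z + 2 * t * (be z * v.1 z) = _
  simp only [rh]
  push_cast
  ring

theorem inv_can (h : ∀ z ∈ B, 0 < rh t z) (v : DQ B) (z : V) :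
    (((rh t z)⁻¹ : ℝ) : ℂ) * (rh t z * v.1 z) = v.1 z := by
  by_cases hz : z ∈ tsupport v.1
  · rw [← mul_assoc, ← Complex.ofReal_mul, inv_mul_cancel₀ (h z (v.2.2.2 hz)).ne',
      Complex.ofReal_one, one_mul]
  · simp [image_eq_zero_of_notMem_tsupport hz]

theorem rE_l (h : ∀ z ∈ B, 0 < rh t z) : rE h * (1 + (2 * (t : ℂ)) • xE B) = 1 :=
  LinearMap.ext fun v => Subtype.ext (funext fun z =>
    (congrArg _ (rho_apply v z)).trans (inv_can h v z))

theorem rE_r (h : ∀ z ∈ B, 0 < rh t z) : (1 + (2 * (t : ℂ)) • xE B) * rE h = 1 :=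
  LinearMap.ext fun v => Subtype.ext (funext fun z =>
    (rho_apply (rE h v) z).trans ((mul_left_comm _ _ _).trans (inv_can h v z)))

theorem box_rh (hu : ContDiff ℝ ∞ u) (z : V) :
    box (fun w => (rh t w : ℂ) * u w) z = rh t z * box u z + 4 * t * dv va u z := by
  have e : ∀ h, dv h (fun w => (rh t w : ℂ) * u w) =
      fun z => 2 * t * be h * u z + rh t z * dv h u z := fun h => funext fun z => Chn.dv_rk hu h
  have e2 : ∀ k h, dv k (dv h fun w => (rh t w : ℂ) * u w) z = 2 * t * be h * dv k u z +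
      (2 * t * be k * dv h u z + rh t z * dv k (dv h u) z) := fun k h => by
    rw [e, dv_add ((hu.differentiable (by simp) z).const_mul _) (((smooth_cx Chn.sm_rh).mul
      (smooth_dv hu h)).differentiable (by simp) z), dv_cmul, Chn.dv_rk (smooth_dv hu h)]
  rw [box_eq ((smooth_cx Chn.sm_rh).mul hu), box_eq hu]
  simp [e2]
  ring

theorem pb_box (h : ∀ z ∈ B, 0 < rh t z) (hu : In B u) : ∃ g, In (cph t '' B) g ∧
    pb 2 (-t) (fun w => (rh t w : ℂ) * box u w) = box g := by
  have hG := in_rmul (Chn.sm_rh (t := t)) hu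
  have r : Reg (-t) fun w => (rh t w : ℂ) * u w := fun z hz => by
    rw [neg_neg]
    exact h z (hG.2.2 hz)
  obtain ⟨a, b⟩ := inn (j := 0) (in_dc hG) r
  rw [neg_neg] at b
  have R : Chn.R t (pb 0 (-t) fun w => (rh t w : ℂ) * u w) fun w => (rh t w : ℂ) * u w :=
    ⟨a.1, (in_dc hG).1, fun w hw => by
      have := pb_pb (j := 0) (t := -t) (f := fun w => (rh t w : ℂ) * u w) hw
      rw [add_neg_cancel, pb_zero, pb, if_pos hw] at this
      simpa using this.symm⟩
  refine ⟨_, in_of a (b.trans (image_mono hG.2.2)), funext fun y => ?_⟩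
  by_cases hy : 0 < rh (-t) y
  · have p : rh t (cph (-t) y) = (rh (-t) y)⁻¹ := by simpa using rh_inv hy.ne'
    have q : cph t (cph (-t) y) = y := by simpa using cph_inv hy.ne'
    have := R.box (z := cph (-t) y) (p ▸ inv_pos.2 hy)
    rw [q, box_rh (in_dc hu).1, Chn.dv_rk (in_dc hu).1] at this
    rw [this, pb, if_pos hy, ← p]
    simp
    ring
  · rw [pb, if_neg hy]
    refine (image_eq_zero_of_notMem_tsupport fun k => hy ?_).symm
    obtain ⟨z, hz, rfl⟩ := b (tsupport_box _ k)
    rw [rh_inv (h z (hG.2.2 hz)).ne']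
    exact inv_pos.2 (h z (hG.2.2 hz))

theorem r1c : R1C := by
  intro B N t G G1 _ ht h0 h1 h2 v hv
  set l : List ℂ := (List.range (N + 1)).map fun k => (t k : ℂ)
  set w := Pw (yE B) (xE B) (dE B va) 1 l ⟨v, hv⟩ with hw
  have a : w.1 ∈ G := h2 _ w.2 fun k hk => by
    have p := (ht k hk).2
    obtain ⟨Z, hZ⟩ := pow_P yE_xE a_xE a_yE (rE_l p) (rE_r p) l 1
    have m : (t k : ℂ) ∈ l := List.mem_map.2 ⟨k, List.mem_range.2 (Nat.lt_succ_of_le hk), rfl⟩
    rw [cw_zero m, zero_smul, add_zero, pow_one] at hZ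
    have e := congrArg (fun a => (1 + (2 * (t k : ℂ)) • xE B) * a) hZ
    simp only [← mul_assoc, rE_r p, one_mul] at e
    obtain ⟨g, g1, g2⟩ := pb_box p (Z ⟨v, hv⟩).2
    have e2 : w.1 = fun z => (rh (t k) z : ℂ) * box (Z ⟨v, hv⟩) z := funext fun z => by
      rw [hw, e, ← yE_apply]
      exact rho_apply _ z
    rw [e2, g2]
    exact h1 k hk g g1
  obtain ⟨Z, hZ⟩ := pow_P (r := 1) (t := 0) (yE_xE (B := B)) a_xE a_yE (by simp) (by simp) l 1
  have c : cw 0 1 l ≠ 0 := cw_ne (fun h => by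
    obtain ⟨k, hk, e⟩ := List.mem_map.1 h
    exact (ht k (Nat.lt_succ_iff.1 (List.mem_range.1 hk))).1 (Complex.ofReal_eq_zero.1 e)) 0
  have n : l.length = N + 1 := by simp [l]
  simp only [one_pow, one_mul, n] at hZ
  have b := G.sub_mem a (h0 _ (Z ⟨v, hv⟩).2)
  rw [hw, hZ, LinearMap.add_apply, Submodule.coe_add, Module.End.mul_apply, yE_apply,
    add_sub_cancel_left, LinearMap.smul_apply, Submodule.coe_smul, dE_pow] at b
  exact (G.smul_mem_iff c).1 b

end

end Vale.Agent.P352X.EB.NA.Mom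

namespace Vale.Agent.P352X.EB.NA

/-- row RIG -/
theorem rig_row (ι : Type*) : RIG ι := Mom.rig_of Mom.r1c ι

end Vale.Agent.P352X.EB.NA
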