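import Vale.Agent.P352X.Api2b
import Vale.Agent.P352X.Api4

/-!
# P352NA, block MOM, part A: test functions of integral zero on a convex set are divergences
-/

set_option linter.all false

open MeasureTheory Filter Topology Set
open scoped SchwartzMap ContDiff

namespace Vale.Agent.P352X.EB.NA.Mom

open Vale.Agent.P352 Vale.Agent.P352.GF Vale.Agent.P352.H246 Vale.Agent.P352X.Ap

noncomputable section

/-- the smooth step -/
def st (s : ℝ) : ℝ := Real.smoothTransition s

@[fun_prop] theorem st_smooth : ContDiff ℝ ∞ st := Real.smoothTransition.contDiff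

@[fun_prop] theorem st_smooth' : ContDiff ℝ ∞ (deriv st) :=
  (contDiff_infty_iff_deriv.1 st_smooth).2

theorem st_der (s : ℝ) : HasDerivAt st (deriv st s) s :=
  (st_smooth.differentiable (by simp) s).hasDerivAt

theorem st_lo : ∀ᶠ s in atBot, st s = 0 :=
  (eventually_le_atBot 0).mono fun _ h => Real.smoothTransition.zero_of_nonpos h

theorem st_hi : ∀ᶠ s in atTop, st s = 1 :=
  (eventually_ge_atTop 1).mono fun _ h => Real.smoothTransition.one_of_one_le h

theorem st_out {s : ℝ} (h : s ∉ Icc (0 : ℝ) 1) : deriv st s = 0 := by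
  rcases lt_or_ge s 0 with h0 | h0
  · have : st =ᶠ[𝓝 s] fun _ => 0 := (eventually_lt_nhds h0).mono fun _ h =>
      Real.smoothTransition.zero_of_nonpos h.le
    rw [this.deriv_eq, deriv_const]
  · have h1 : 1 < s := lt_of_not_ge fun h1 => h ⟨h0, h1⟩
    have : st =ᶠ[𝓝 s] fun _ => 1 := (eventually_gt_nhds h1).mono fun _ h =>
      Real.smoothTransition.one_of_one_le h.le
    rw [this.deriv_eq, deriv_const]

theorem tg : (volume : Measure (ℝ × V)).HasTemperateGrowth :=
  haveI : (volume : Measure (ℝ × V)).IsAddHaarMeasure := Measure.prod.instIsAddHaarMeasure _ _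
  inferInstance

variable {f ρ : Fn} {Q : Set V}

/-- the homotopy -/
def hm (f ρ : Fn) (y : ℝ × V) (z : V) : ℂ := f (z + (1 - st y.1) • y.2) * ρ (z - st y.1 • y.2)

/-- the current -/
def cu (f ρ : Fn) (i : Ix) (q : (ℝ × V) × V) : ℂ :=
  ((deriv st q.1.1 * q.1.2 i : ℝ) : ℂ) * hm f ρ q.1 q.2

/-- the support of the current -/
def sp (f ρ : Fn) : Set ((ℝ × V) × V) := (fun a : ℝ × V × V =>
  ((a.1, a.2.1 - a.2.2), st a.1 • a.2.1 + (1 - st a.1) • a.2.2)) ''
    (Icc 0 1 ×ˢ tsupport f ×ˢ tsupport ρ)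

theorem sp_cpt (hf : Dc f) (hρ : Dc ρ) : IsCompact (sp f ρ) :=
  (isCompact_Icc.prod (hf.2.isCompact.prod hρ.2.isCompact)).image
    (by have := st_smooth.continuous; fun_prop)

theorem cu_out (i : Ix) {q : (ℝ × V) × V} (h : q ∉ sp f ρ) : cu f ρ i q = 0 := by
  obtain ⟨⟨s, u⟩, z⟩ := q
  by_contra k
  simp only [cu, hm, mul_eq_zero, not_or, Complex.ofReal_eq_zero] at k
  refine h ⟨(s, z + (1 - st s) • u, z - st s • u), ⟨by_contra fun a => k.1.1 (st_out a),
    subset_tsupport _ k.2.1, subset_tsupport _ k.2.2⟩, ?_⟩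
  refine Prod.ext (Prod.ext rfl ?_) ?_
  · show z + (1 - st s) • u - (z - st s • u) = u
    module
  · show st s • (z + (1 - st s) • u) + (1 - st s) • (z - st s • u) = z
    module

theorem hm_smooth (hf : Dc f) (hρ : Dc ρ) :
    ContDiff ℝ ∞ fun q : (ℝ × V) × V => hm f ρ q.1 q.2 := by
  unfold hm
  exact (hf.1.comp (by fun_prop)).mul (hρ.1.comp (by fun_prop))

theorem cu_dc (hf : Dc f) (hρ : Dc ρ) (i : Ix) : Dc (cu f ρ i) :=
  Api4.dc_of_zero ((smooth_cx (by fun_prop)).mul (hm_smooth hf hρ)) (sp_cpt hf hρ)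
    fun _ h => cu_out i h

theorem sp_sub (hQ : Convex ℝ Q) (hf : In Q f) (hρ : In Q ρ) : Prod.snd '' sp f ρ ⊆ Q := by
  rintro _ ⟨_, ⟨⟨s, x, y⟩, ⟨-, hx, hy⟩, rfl⟩, rfl⟩
  exact hQ (hf.2.2 hx) (hρ.2.2 hy) (Real.smoothTransition.nonneg s)
    (sub_nonneg.2 (Real.smoothTransition.le_one s)) (by ring)

theorem cu_in (hQ : Convex ℝ Q) (hf : In Q f) (hρ : In Q ρ) (i : Ix) :
    In Q fun z => ∫ y, cu f ρ i (y, z) :=
  haveI := tg
  in_of (Api4.dc_int volume (cu_dc (in_dc hf) (in_dc hρ) i))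
    ((Api4.tsupport_int volume (cu_dc (in_dc hf) (in_dc hρ) i)).trans
      ((image_mono (tsupp_sub (sp_cpt (in_dc hf) (in_dc hρ)).isClosed fun _ h =>
        by_contra fun k => h (cu_out i k))).trans (sp_sub hQ hf hρ)))

/-- the derivative of the homotopy in the parameter -/
def dh (f ρ : Fn) (y : ℝ × V) (z : V) : ℂ := -(deriv st y.1 : ℝ) *
  (fderiv ℝ f (z + (1 - st y.1) • y.2) y.2 * ρ (z - st y.1 • y.2) +
    f (z + (1 - st y.1) • y.2) * fderiv ℝ ρ (z - st y.1 • y.2) y.2)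

theorem hm_der (hf : Dc f) (hρ : Dc ρ) (u z : V) (s : ℝ) :
    HasDerivAt (fun s => hm f ρ (s, u) z) (dh f ρ (s, u) z) s := by
  have a : HasDerivAt (fun s => z + (1 - st s) • u) ((-deriv st s) • u) s :=
    (((st_der s).const_sub 1).smul_const u).const_add z
  have b : HasDerivAt (fun s => z - st s • u) (-(deriv st s • u)) s :=
    ((st_der s).smul_const u).const_sub z
  have a' := (hf.1.differentiable (by simp) _).hasFDerivAt.comp_hasDerivAt s a
  have b' := (hρ.1.differentiable (by simp) _).hasFDerivAt.comp_hasDerivAt s b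
  refine (a'.mul b').congr_deriv ?_
  simp only [dh, map_neg, map_smul, neg_smul, Function.comp, Complex.real_smul]
  ring

theorem cu_fd (hf : Dc f) (hρ : Dc ρ) (i : Ix) (y : ℝ × V) (z v : V) :
    fderiv ℝ (cu f ρ i) (y, z) (0, v) = ((deriv st y.1 * y.2 i : ℝ) : ℂ) *
      (fderiv ℝ f (z + (1 - st y.1) • y.2) v * ρ (z - st y.1 • y.2) +
        f (z + (1 - st y.1) • y.2) * fderiv ℝ ρ (z - st y.1 • y.2) v) := by
  have l : HasDerivAt (fun r : ℝ => z + r • v) v 0 := by
    simpa using ((hasDerivAt_id (0 : ℝ)).smul_const v).const_add z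
  have h1 : HasDerivAt (fun r : ℝ => cu f ρ i (y, z + r • v))
      (fderiv ℝ (cu f ρ i) (y, z) (0, v)) 0 := by
    have := (hasDerivAt_const (0 : ℝ) y).prodMk l
    refine HasFDerivAt.comp_hasDerivAt_of_eq (0 : ℝ)
      ((cu_dc hf hρ i).1.differentiable (by simp) (y, z)).hasFDerivAt this (by simp)
  have a := HasFDerivAt.comp_hasDerivAt_of_eq (0 : ℝ) (hf.1.differentiable (by simp)
    (z + (1 - st y.1) • y.2)).hasFDerivAt (l.add_const ((1 - st y.1) • y.2)) (by simp)
  have b := HasFDerivAt.comp_hasDerivAt_of_eq (0 : ℝ) (hρ.1.differentiable (by simp)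
    (z - st y.1 • y.2)).hasFDerivAt (l.sub_const (st y.1 • y.2)) (by simp)
  refine h1.unique ?_
  refine ((a.mul b).const_mul ((deriv st y.1 * y.2 i : ℝ) : ℂ)).congr_deriv ?_
  simp

theorem fd_sum (g : Fn) (x u : V) : ∑ i, (u i : ℂ) * fderiv ℝ g x (bas i 1) = fderiv ℝ g x u := by
  conv_rhs => rw [← sum_bas u, map_sum]
  simp

theorem cu_sum (hf : Dc f) (hρ : Dc ρ) (y : ℝ × V) (z : V) :
    ∑ i, fderiv ℝ (cu f ρ i) (y, z) (0, bas i 1) = -dh f ρ y z := by
  simp only [cu_fd hf hρ, dh]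
  rw [← fd_sum f _ y.2, ← fd_sum ρ _ y.2]
  simp only [Fin.sum_univ_four]
  push_cast
  ring

theorem fd_int (hf : Dc f) (hρ : Dc ρ) (i : Ix) (z : V) :
    Integrable fun y => fderiv ℝ (cu f ρ i) (y, z) (0, bas i 1) :=
  haveI := tg
  Api4.integrable_slice volume (Api4.dc_fderiv (cu_dc hf hρ i)
    (X := fun _ => ((0, bas i 1) : (ℝ × V) × V)) contDiff_const) z

theorem dh_int (hf : Dc f) (hρ : Dc ρ) (z : V) : Integrable fun y => dh f ρ y z := by
  have := (integrable_finset_sum Finset.univ fun i _ => fd_int hf hρ i z).neg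
  refine this.congr (Eventually.of_forall fun y => ?_)
  simp [cu_sum hf hρ]

theorem dh_val (hf : Dc f) (hρ : Dc ρ) (z : V) :
    ∫ y, dh f ρ y z = (∫ u, ρ u) * f z - (∫ u, f u) * ρ z := by
  have hi := dh_int hf hρ z
  rw [Measure.volume_eq_prod] at hi
  rw [Measure.volume_eq_prod, integral_prod_symm _ hi]
  have e : ∀ᵐ u : V, ∫ s, dh f ρ (s, u) z = f z * ρ (z - u) - f (z + u) * ρ z := by
    filter_upwards [hi.prod_left_ae] with u hu
    refine integral_of_hasDerivAt_of_tendsto (hm_der hf hρ u z) hu ?_ ?_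
    · exact tendsto_const_nhds.congr' (st_lo.mono fun s h => by simp [hm, h])
    · exact tendsto_const_nhds.congr' (st_hi.mono fun s h => by simp [hm, h])
  rw [integral_congr_ae e, integral_sub (((cs_int hρ).comp_sub_left z).const_mul _)
    (((cs_int hf).comp_add_left z).mul_const _), integral_const_mul, integral_mul_const,
    integral_sub_left_eq_self, integral_add_left_eq_self, mul_comm]

/-- a test function minus the multiple of a fixed one with the same integral is a divergence -/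
theorem div (hQ : Convex ℝ Q) (hf : In Q f) (hρ : In Q ρ) : ∃ w : Ix → Fn, (∀ i, In Q (w i)) ∧
    ∀ z, (∫ u, f u) * ρ z - (∫ u, ρ u) * f z = ∑ i, pd i (w i) z := by
  haveI := tg
  refine ⟨_, cu_in hQ hf hρ, fun z => ?_⟩
  have e : ∀ i, pd i (fun z => ∫ y, cu f ρ i (y, z)) z =
      ∫ y, fderiv ℝ (cu f ρ i) (y, z) (0, bas i 1) := fun i => by
    rw [pd_eq ((in_dc (cu_in hQ hf hρ i)).1.differentiable (by simp) z),
      Api4.fderiv_int volume (cu_dc (in_dc hf) (in_dc hρ) i)]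
  simp only [e]
  rw [← integral_finset_sum _ fun i _ => fd_int (in_dc hf) (in_dc hρ) i z]
  simp only [cu_sum (in_dc hf) (in_dc hρ)]
  rw [integral_neg, dh_val (in_dc hf) (in_dc hρ), neg_sub]

end

end Vale.Agent.P352X.EB.NA.Mom
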