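import Vale.Agent.P352NA.MOM.A

/-!
# P352NA, block MOM, part B: functionals that vanish on high derivatives are polynomial densities
-/

set_option linter.all false

open MeasureTheory Filter Topology Set
open scoped SchwartzMap ContDiff

namespace Vale.Agent.P352X.EB.NA.Mom

open Vale.Agent.P352 Vale.Agent.P352.GF Vale.Agent.P352.H246 Vale.Agent.P352X.Ap
open MvPolynomial (X C pderiv monomial coeff)

noncomputable section

/-- polynomials on space-time -/
abbrev Py := MvPolynomial Ix ℂ

theorem pd_comm (i j : Ix) (S : Py) : pderiv i (pderiv j S) = pderiv j (pderiv i S) := by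
  classical
  induction S using MvPolynomial.induction_on with
  | C a => simp
  | add p q hp hq => simp only [map_add, hp, hq]
  | mul_X p k hp =>
    have h : ∀ a b, pderiv a (pderiv b (X k : Py)) = 0 := fun a b => by
      rw [MvPolynomial.pderiv_X, Pi.single_apply]
      split_ifs <;> simp
    simp only [Derivation.leibniz, map_add, smul_eq_mul, hp, h]
    ring

/-- the Euler operator -/
def eul (p : Py) : Py := ∑ i, X i * pderiv i p

theorem eul_add (p q : Py) : eul (p + q) = eul p + eul q := by
  simp [eul, mul_add, Finset.sum_add_distrib]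

theorem eul_sub (p q : Py) : eul (p - q) = eul p - eul q := by
  simp [eul, mul_sub, Finset.sum_sub_distrib]

theorem eul_mono (m : Ix →₀ ℕ) (a : ℂ) :
    eul (monomial m a) = monomial m ((∑ i, m i : ℕ) * a) := by
  simp only [eul, MvPolynomial.X_mul_pderiv_monomial]
  rw [← Finset.sum_smul, MvPolynomial.smul_monomial, nsmul_eq_mul]

theorem eul_coeff (p : Py) (m : Ix →₀ ℕ) : coeff m (eul p) = (∑ i, m i : ℕ) * coeff m p := by
  classical
  induction p using MvPolynomial.induction_on' with
  | add p q hp hq => rw [eul_add, MvPolynomial.coeff_add, hp, hq, MvPolynomial.coeff_add, mul_add]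
  | monomial n a =>
    rw [eul_mono, MvPolynomial.coeff_monomial, MvPolynomial.coeff_monomial]
    split_ifs with h
    · rw [h]
    · rw [mul_zero]

theorem eul_surj (q : Py) : ∃ r, eul r + r = q := by
  induction q using MvPolynomial.induction_on' with
  | add p q hp hq =>
    obtain ⟨r, rfl⟩ := hp
    obtain ⟨s, rfl⟩ := hq
    exact ⟨r + s, by rw [eul_add]; ring⟩
  | monomial n a =>
    refine ⟨monomial n (a / ((∑ i, n i : ℕ) + 1)), ?_⟩
    rw [eul_mono, ← map_add]
    congr 1
    have : ((∑ i, n i : ℕ) : ℂ) + 1 ≠ 0 := Nat.cast_add_one_ne_zero _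
    field_simp

theorem eul_inj {r : Py} (h : eul r + r + r = 0) : r = 0 := by
  ext m
  have := congrArg (coeff m) h
  rw [MvPolynomial.coeff_add, MvPolynomial.coeff_add, eul_coeff, MvPolynomial.coeff_zero] at this
  have e : (((∑ i, m i : ℕ) + 2 : ℕ) : ℂ) * coeff m r = 0 := by
    rw [← this, Nat.cast_add]
    ring
  simpa using (mul_eq_zero.1 e).resolve_left (Nat.cast_ne_zero.2 (by omega))

theorem pd_sum (j : Ix) (r : Ix → Py) :
    pderiv j (∑ i, X i * r i) = r j + ∑ i, X i * pderiv j (r i) := by
  classical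
  simp [MvPolynomial.pderiv_mul, MvPolynomial.pderiv_X, Pi.single_apply, Finset.sum_add_distrib,
    add_comm]

theorem pd_eul (j : Ix) (r : Py) : pderiv j (eul r) = eul (pderiv j r) + pderiv j r := by
  rw [eul, pd_sum, add_comm]
  simp only [eul, pd_comm j]

/-- closed polynomial one-forms are exact -/
theorem poin (q : Ix → Py) (h : ∀ i j, pderiv j (q i) = pderiv i (q j)) :
    ∃ p : Py, ∀ j, pderiv j p = q j := by
  choose r hr using fun i => eul_surj (q i)
  have k : ∀ i j, pderiv j (r i) = pderiv i (r j) := fun i j => sub_eq_zero.1 (eul_inj (by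
    have := h i j
    rw [← hr i, ← hr j, map_add, map_add, pd_eul, pd_eul] at this
    rw [eul_sub]
    linear_combination this))
  refine ⟨∑ i, X i * r i, fun j => ?_⟩
  rw [pd_sum, ← hr j, add_comm]
  simp only [eul, k _ j]

/-! ## polynomial functions -/

theorem evp_add (p q : Py) (v : V) : evp (p + q) v = evp p v + evp q v := map_add _ _ _

theorem evp_sub (p q : Py) (v : V) : evp (p - q) v = evp p v - evp q v := map_sub _ _ _

theorem evp_neg (p : Py) (v : V) : evp (-p) v = -evp p v := map_neg _ _

theorem evp_mul (p q : Py) (v : V) : evp (p * q) v = evp p v * evp q v := map_mul _ _ _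

theorem evp_C (a : ℂ) (v : V) : evp (C a) v = a := MvPolynomial.eval_C _

theorem evp_X (i : Ix) (v : V) : evp (X i) v = v i := MvPolynomial.eval_X _

theorem evp_smooth (q : Py) : ContDiff ℝ ∞ (evp q) := (Api4.temperate_evp q (.id ℝ V)).1

theorem evp_diff (q : Py) (v : V) : DifferentiableAt ℝ (evp q) v :=
  (evp_smooth q).differentiable (by simp) v

theorem evp_der (q : Py) (v : V) (j : Ix) :
    fderiv ℝ (evp q) v (bas j 1) = evp (pderiv j q) v := by
  classical
  induction q using MvPolynomial.induction_on with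
  | C a =>
    rw [funext (evp_C a)]
    simp [evp]
  | add p q hp hq =>
    rw [funext (evp_add p q), fderiv_fun_add (evp_diff p v) (evp_diff q v)]
    simp only [ContinuousLinearMap.add_apply, hp, hq, map_add, evp_add]
  | mul_X p k hp =>
    rw [funext (evp_mul p _), fderiv_fun_mul (evp_diff p v) (evp_diff _ v), funext (evp_X k),
      show fderiv ℝ (fun v : V => (v k : ℂ)) v = _ from
        (Complex.ofRealCLM ∘L ContinuousLinearMap.proj (φ := fun _ => ℝ) k).fderiv]
    by_cases e : k = j <;>
      simp [hp, MvPolynomial.pderiv_X, Pi.single_apply, evp_add, evp_mul, evp_X, bas, e,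
        show evp 1 v = 1 from map_one _, mul_comm]

theorem evp_zero {q : Py} {U : Set V} (hU : IsOpen U) {x : V} (hx : x ∈ U)
    (h : ∀ p ∈ U, evp q p = 0) : q = 0 := by
  obtain ⟨r, r0, hr⟩ := Metric.isOpen_iff.1 hU x hx
  refine MvPolynomial.funext_set (fun i => Complex.ofReal '' Metric.ball (x i) r) (fun i => ?_)
    fun z hz => ?_
  · rw [Real.ball_eq_Ioo]
    exact (Ioo_infinite (by linarith)).image Complex.ofReal_injective.injOn
  · choose p h1 h2 using fun i => hz i (mem_univ i)
    rw [map_zero, ← h p (hr ((dist_pi_lt_iff r0).2 h1)), evp, funext h2]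

variable {f : Fn} {Q : Set V}

/-- a continuous density is determined by its integrals against test functions -/
theorem dens_zero {u : Fn} (hQ : IsOpen Q) (hu : ContinuousOn u Q)
    (h : ∀ f, In Q f → ∫ z, u z * f z = 0) : ∀ z ∈ Q, u z = 0 := by
  have := hQ.ae_eq_zero_of_integral_contDiff_smul_eq_zero (μ := volume)
    (hu.locallyIntegrableOn hQ.measurableSet) fun g a b c => by
      simpa [mul_comm] using h _ (in_cx ⟨a, b⟩ c)
  exact Measure.eqOn_open_of_ae_eq ((ae_restrict_iff' hQ.measurableSet).2 this) hQ hu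
    continuousOn_const

theorem int_evp (q : Py) (hf : In Q f) : Integrable fun z => evp q z * f z :=
  cs_int (cs_mul_l (evp_smooth q) (in_dc hf))

theorem ibp (q : Py) (hf : In Q f) (j : Ix) :
    ∫ z, evp q z * pd j f z = -∫ z, evp (pderiv j q) z * f z := by
  have d := (in_dc hf).1.differentiable (by simp)
  have := integral_mul_fderiv_eq_neg_fderiv_mul_of_integrable (μ := volume) (f := evp q) (g := f)
    (v := bas j 1) (by simpa only [evp_der] using int_evp _ hf)
    (by simpa only [pd_eq' d] using int_evp q (in_pd j hf)) (int_evp q hf)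
    (fun x _ => evp_diff q x) fun x _ => d x
  simpa only [evp_der, pd_eq' d] using this

/-- `Λ` is linear on the test functions in `Q` -/
def Li (Q : Set V) (Λ : Fn → ℂ) : Prop :=
  ∀ (f g : Fn) (c : ℂ), In Q f → In Q g → Λ (fun x => f x + c * g x) = Λ f + c * Λ g

/-- `Λ` has a polynomial density on `Q` -/
def Pd (Q : Set V) (Λ : Fn → ℂ) : Prop := ∃ p : Py, ∀ f, In Q f → Λ f = ∫ z, evp p z * f z

variable {Λ : Fn → ℂ}

theorem Li.zero (h : Li Q Λ) : Λ (fun _ => 0) = 0 := by
  simpa using h (fun _ => 0) (fun _ => 0) 1 in_zero in_zero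

theorem Li.add {g : Fn} (h : Li Q Λ) (hf : In Q f) (hg : In Q g) :
    Λ (fun x => f x + g x) = Λ f + Λ g := by simpa using h f g 1 hf hg

theorem Li.cmul (h : Li Q Λ) (c : ℂ) (hf : In Q f) : Λ (fun x => c * f x) = c * Λ f := by
  simpa [h.zero] using h (fun _ => 0) f c in_zero hf

theorem Li.pd (h : Li Q Λ) (j : Ix) : Li Q fun f => Λ (pd j f) := fun f g c hf hg => by
  show Λ _ = _
  rw [← h _ _ c (in_pd j hf) (in_pd j hg)]
  congr 1
  funext x
  have a := (in_dc hf).1.differentiable (by simp) x
  have b := (in_dc (in_cmul c hg)).1.differentiable (by simp) x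
  rw [← dv_bas, dv_add a b, dv_bas, dv_bas, pd_cmul]

theorem li_int (p : Py) : Li Q fun f => ∫ z, evp p z * f z := fun f g c hf hg => by
  show ∫ z, evp p z * (f z + c * g z) = _
  rw [← integral_const_mul, ← integral_add (int_evp p hf) ((int_evp p hg).const_mul c)]
  congr 1
  funext z
  ring

theorem pd_pd (hf : In Q f) (i j : Ix) : pd i (pd j f) = pd j (pd i f) := funext fun x => by
  simpa only [dv_bas] using dv_comm (in_dc hf).1 (bas i 1) (bas j 1) x

theorem base (hQ : Convex ℝ Q) (hO : IsOpen Q) {x : V} (hx : x ∈ Q) (hl : Li Q Λ)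
    (h : ∀ i f, In Q f → Λ (pd i f) = 0) : ∃ c : ℂ, ∀ f, In Q f → Λ f = c * ∫ z, f z := by
  obtain ⟨ρ, a1, a2, -, a3⟩ := ex_rho (volume : Measure V) (hO.mem_nhds hx)
  have hρ := in_cx a1 a2
  refine ⟨Λ fun z => (ρ z : ℂ), fun f hf => ?_⟩
  obtain ⟨w, hw, e⟩ := div hQ hf hρ
  have e1 : (fun z => f z + (-∫ u, f u) * (ρ z : ℂ)) = fun z => (-1) * (pd 0 (w 0) z +
      (pd 1 (w 1) z + (pd 2 (w 2) z + pd 3 (w 3) z))) := funext fun z => by
    have := e z
    rw [integral_complex_ofReal, a3, Fin.sum_univ_four, Complex.ofReal_one] at this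
    linear_combination (-1) * this
  have k := fun i => in_pd i (hw i)
  have := hl f _ (-∫ u, f u) hf hρ
  rw [e1, hl.cmul _ (in_add (k 0) (in_add (k 1) (in_add (k 2) (k 3)))),
    hl.add (k 0) (in_add (k 1) (in_add (k 2) (k 3))), hl.add (k 1) (in_add (k 2) (k 3)),
    hl.add (k 2) (k 3), h _ _ (hw 0), h _ _ (hw 1), h _ _ (hw 2), h _ _ (hw 3)] at this
  linear_combination -this

theorem step (hQ : Convex ℝ Q) (hO : IsOpen Q) {x : V} (hx : x ∈ Q) (hl : Li Q Λ)
    (h : ∀ i, Pd Q fun f => Λ (pd i f)) : Pd Q Λ := by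
  choose q hq using h
  obtain ⟨p, hp⟩ := poin q fun i j => sub_eq_zero.1 (evp_zero hO hx (dens_zero hO
    (evp_smooth _).continuous.continuousOn fun f hf => by
      have a := hq i _ (in_pd j hf)
      have b := hq j _ (in_pd i hf)
      simp only [ibp _ hf] at a b
      rw [pd_pd hf, b, neg_inj] at a
      simp only [evp_sub, sub_mul]
      rw [integral_sub (int_evp _ hf) (int_evp _ hf), a, sub_self]))
  obtain ⟨c, hc⟩ := base (Λ := fun f => Λ f + ∫ z, evp p z * f z) hQ hO hx
    (fun f g c hf hg => by
      have := li_int p f g c hf hg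
      simp only at this ⊢
      rw [hl f g c hf hg, this]
      ring) fun i f hf => by
      have := hq i f hf
      simp only at this ⊢
      rw [ibp _ hf, hp, this, add_neg_cancel]
  refine ⟨C c - p, fun f hf => ?_⟩
  have := hc f hf
  simp only [evp_sub, sub_mul, evp_C] at this ⊢
  rw [integral_sub ((cs_int (in_dc hf)).const_mul c) (int_evp p hf), integral_const_mul, ← this,
    add_sub_cancel_right]

theorem in_it (i : Ix) (n : ℕ) (hf : In Q f) : In Q ((pd i)^[n] f) := by
  induction n with
  | zero => exact hf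
  | succ n ih => rw [Function.iterate_succ_apply']; exact in_pd i ih

theorem pd_it (hf : In Q f) (i j : Ix) (n : ℕ) : pd j ((pd i)^[n] f) = (pd i)^[n] (pd j f) := by
  induction n with
  | zero => rfl
  | succ n ih =>
    rw [Function.iterate_succ_apply', Function.iterate_succ_apply', ← ih, pd_pd (in_it i n hf)]

theorem mom' (hQ : Convex ℝ Q) (hO : IsOpen Q) {x : V} (hx : x ∈ Q) (n : ℕ) :
    ∀ (m : Ix → ℕ) (Λ : Fn → ℂ), ∑ i, m i = n → Li Q Λ →
      (∀ i f, In Q f → Λ ((pd i)^[m i] f) = 0) → Pd Q Λ := by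
  classical
  induction n with
  | zero =>
    intro m Λ hm hl h
    refine ⟨0, fun f hf => ?_⟩
    have := h 0 f hf
    rw [Finset.sum_eq_zero_iff.1 hm 0 (Finset.mem_univ _)] at this
    simpa [evp] using this
  | succ n ih =>
    intro m Λ hm hl h
    refine step hQ hO hx hl fun j => ?_
    by_cases h0 : m j = 0
    · refine ⟨0, fun f hf => ?_⟩
      have := h j _ (in_pd j hf)
      rw [h0] at this
      simpa [evp] using this
    refine ih (Function.update m j (m j - 1)) _ ?_ (hl.pd j) fun i f hf => ?_
    · rw [Finset.sum_update_of_mem (Finset.mem_univ j)]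
      rw [← Finset.add_sum_erase _ _ (Finset.mem_univ j), Finset.erase_eq] at hm
      omega
    · by_cases e : i = j
      · subst e
        have := h i f hf
        rw [← Nat.sub_add_cancel (Nat.one_le_iff_ne_zero.2 h0), Function.iterate_succ_apply'] at this
        simpa using this
      · simp only [Function.update_of_ne e]
        rw [pd_it hf]
        exact h i _ (in_pd j hf)

/-- **MOM.** A functional that vanishes on the derivatives of order `M` in every coordinate
direction has a polynomial density. -/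
theorem mom (hQ : Convex ℝ Q) (hO : IsOpen Q) (M : ℕ) (hl : Li Q Λ)
    (h : ∀ i f, In Q f → Λ ((pd i)^[M] f) = 0) :
    ∃ p : Py, ∀ f, In Q f → Λ f = ∫ z, evp p z * f z := by
  rcases Q.eq_empty_or_nonempty with rfl | ⟨x, hx⟩
  · refine ⟨0, fun f hf => ?_⟩
    have : f = fun _ => 0 := funext fun z => image_eq_zero_of_notMem_tsupport fun k => hf.2.2 k
    rw [this, hl.zero]
    simp
  · exact mom' hQ hO hx _ (fun _ => M) Λ rfl hl h

end

end Vale.Agent.P352X.EB.NA.Mom
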