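import Vale.Agent.P352NA.MOM.R4
import Vale.Agent.P352NA.POL
import Vale.Agent.P352X.EB.CHN
import Vale.Agent.P352.H746.Nrt
import Vale.Agent.P352.H496.Enl2

/-!
# P352NA, block RIG: steps GE4, R2 and the assembly
-/

set_option linter.all false

open MeasureTheory Filter Topology Set
open scoped SchwartzMap ContDiff

namespace Vale.Agent.P352X.EB.NA.Mom

open Vale.Agent.P352 Vale.Agent.P352.GF Vale.Agent.P352.H246 Vale.Agent.P352X.Ap
open Vale.Agent.P352.H15 Vale.Agent.P352.H496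
open Vale.Agent.P352.H746 (nrt sim_nrt isLor_nrt)
open Ch0

noncomputable section

/-- the core of step R1 -/
def R1C : Prop := ∀ (B : Set V) (N : ℕ) (t : ℕ → ℝ) (G : Submodule ℂ Fn)
  (G1 : ℕ → Submodule ℂ Fn), IsCompact B → (∀ k ≤ N, t k ≠ 0 ∧ ∀ z ∈ B, 0 < rh (t k) z) →
  (∀ u, In B u → box u ∈ G) → (∀ k ≤ N, ∀ u, In (cph (t k) '' B) u → box u ∈ G1 k) →
  (∀ h, In B h → (∀ k ≤ N, pb 2 (-t k) h ∈ G1 k) → h ∈ G) →
  ∀ v, In B v → (dv va)^[N + 1] v ∈ G

variable {B : Set V} {G : Submodule ℂ Fn} {h k : V} {n m : ℕ} {f : Fn} {L : Ix → V}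

/-- directional derivatives on `D(B)` -/
def dE (B : Set V) (h : V) : Module.End ℂ (DQ B) where
  toFun v := ⟨dv h v, in_dv h v.2⟩
  map_add' v w := Subtype.ext (funext fun x => dv_add ((in_dc v.2).1.differentiable (by simp) x)
    ((in_dc w.2).1.differentiable (by simp) x) h)
  map_smul' c v := Subtype.ext (funext fun x => dv_cmul c h v x)

theorem dE_add : dE B (h + k) = dE B h + dE B k :=
  LinearMap.ext fun v => Subtype.ext (funext fun x => dv_add_l h k v x)

theorem dE_smul (t : ℝ) : dE B (t • h) = (t : ℂ) • dE B h :=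
  LinearMap.ext fun v => Subtype.ext (funext fun x => dv_smul_l t h v x)

theorem dE_comm : Commute (dE B h) (dE B k) :=
  LinearMap.ext fun v => Subtype.ext (funext fun x => dv_comm (in_dc v.2).1 h k x)

theorem dE_pow (n : ℕ) (v : DQ B) : ((dE B h ^ n) v : Fn) = (dv h)^[n] v := by
  induction n with
  | zero => rfl
  | succ n ih => rw [pow_succ', Function.iterate_succ_apply', ← ih]; rfl

/-- the range of `a` lies in `G` -/
def Rn (G : Submodule ℂ Fn) (a : Module.End ℂ (DQ B)) : Prop := ∀ v, (a v : Fn) ∈ G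

theorem Rn.mul {a : Module.End ℂ (DQ B)} (h : Rn G a) (b : Module.End ℂ (DQ B)) : Rn G (a * b) :=
  fun v => h (b v)

theorem Rn.pow {a : Module.End ℂ (DQ B)} (h : Rn G (a ^ n)) (e : n ≤ m) : Rn G (a ^ m) := by
  rw [← Nat.add_sub_cancel' e, pow_add]
  exact h.mul _

theorem Rn.add {a b : Module.End ℂ (DQ B)} (c : Commute a b) (h : Rn G (a ^ n))
    (k : Rn G (b ^ m)) : Rn G ((a + b) ^ (n + m)) := fun v => by
  rw [c.add_pow, LinearMap.sum_apply, Submodule.coe_sum]
  refine G.sum_mem fun j _ => ?_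
  rcases le_total n j with e | e
  · exact ((h.pow e).mul _).mul _ v
  · rw [(c.pow_pow _ _).eq]
    exact ((k.pow (by omega)).mul _).mul _ v

theorem Rn.smul {a : Module.End ℂ (DQ B)} (h : Rn G (a ^ n)) (c : ℂ) : Rn G ((c • a) ^ n) :=
  fun v => by
    rw [smul_pow]
    exact G.smul_mem _ (h v)

/-- the preimage of `va` under a null rotation -/
def nw (w : R2) : V := pt 1 (2 * d2 w w) (-(2 : ℝ) • w)

theorem md_w (w : R2) : mdot vb (tv w) = 0 := by simp [md_vb]

theorem sim_nw (w : R2) : sim 1 (nrt vb (tv w)) 0 (nw w) = va := by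
  rw [sim_nrt]
  refine null_ext ?_ ?_ ?_ <;> simp [nw, md_vb, md_tv, d2_eq]
  ring

theorem dec {s : ℝ} (hs : s ≠ 0) (h : V) : ∃ a b c d : ℝ,
    h = a • nw 0 + b • nw (s • e2 0) + c • nw (-s • e2 0) + d • nw (s • e2 1) := by
  refine ⟨al h - be h / (2 * s ^ 2), (be h / (2 * s ^ 2) + tx h 1 / (2 * s) - tx h 0 / (2 * s)) / 2,
    (be h / (2 * s ^ 2) + tx h 1 / (2 * s) + tx h 0 / (2 * s)) / 2, -(tx h 1 / (2 * s)),
    null_ext ?_ ?_ ?_⟩
  · simp [nw]
    ring
  · simp [nw, d2_eq, e2]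
    field_simp
    ring
  · simp only [tx_add, tx_smul, nw, tx_pt]
    ext i
    fin_cases i <;> simp [e2] <;> field_simp <;> ring

theorem near {K O : Set V} (hK : IsCompact K) (hO : IsOpen O) (h : K ⊆ O) :
    ∀ᶠ w : R2 in 𝓝 0, ∀ z ∈ K, sim 1 (nrt vb (tv w)) 0 z ∈ O :=
  hK.eventually_forall_of_forall_eventually fun z hz => by
    have c : Continuous fun q : R2 × V => sim 1 (nrt vb (tv q.1)) 0 q.2 := by
      simp only [sim_nrt]
      fun_prop
    exact c.continuousAt.eventually_mem (hO.mem_nhds (by simpa [sim_nrt, md_zero_l] using h hz))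

theorem ge4 {p : R2 → Prop} (h : ∀ᶠ w in 𝓝 0, p w) :
    ∃ s : ℝ, s ≠ 0 ∧ p 0 ∧ p (s • e2 0) ∧ p (-s • e2 0) ∧ p (s • e2 1) := by
  have a : ∀ g : ℝ → R2, Continuous g → g 0 = 0 → ∀ᶠ s in 𝓝[≠] (0 : ℝ), p (g s) := fun g c e =>
    ((c.tendsto' 0 0 e).eventually h).filter_mono nhdsWithin_le_nhds
  have b : ∀ᶠ s in 𝓝[≠] (0 : ℝ), s ≠ 0 := self_mem_nhdsWithin
  obtain ⟨s, h0, h1, h2, h3⟩ := (b.and ((a (fun s => s • e2 0) (by fun_prop) (by simp)).and
    ((a (fun s => -s • e2 0) (by fun_prop) (by simp)).and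
    (a (fun s => s • e2 1) (by fun_prop) (by simp))))).exists
  exact ⟨s, h0, h.self_of_nhds, h1, h2, h3⟩

theorem r2 (h : ∀ᶠ w in 𝓝 0, Rn G (dE B (nw w) ^ n)) (k : V) : Rn G (dE B k ^ (4 * n)) := by
  obtain ⟨s, hs, h0, h1, h2, h3⟩ := ge4 h
  obtain ⟨a, b, c, d, rfl⟩ := dec hs k
  have e : ∀ (a : ℝ) w, Rn G (dE B (nw w) ^ n) → Rn G (dE B (a • nw w) ^ n) := fun a w h => by
    rw [dE_smul]
    exact h.smul _
  have e2 : ∀ {h k : V} {n m : ℕ}, Rn G (dE B h ^ n) → Rn G (dE B k ^ m) →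
      Rn G (dE B (h + k) ^ (n + m)) := fun a b => by
    rw [dE_add]
    exact Rn.add dE_comm a b
  exact (e2 (e2 (e2 (e a _ h0) (e b _ h1)) (e c _ h2)) (e d _ h3)).pow (by omega)

/-! ## Lorentz transformations -/

theorem dv_lor (hL : IsLor L) (hf : ContDiff ℝ ∞ f) (h : V) :
    dv h (fun x => f (sim 1 L 0 x)) = fun x => dv (sim 1 L 0 h) f (sim 1 L 0 x) := funext fun x => by
  have := dv_aff (f := f) (x := x) ((conf_lor hL).cle : V →L[ℝ] V) 0
    (hf.differentiable (by simp) _) h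
  simpa using this

theorem it_smooth (hf : ContDiff ℝ ∞ f) (h : V) (n : ℕ) : ContDiff ℝ ∞ ((dv h)^[n] f) := by
  induction n with
  | zero => exact hf
  | succ n ih => rw [Function.iterate_succ_apply']; exact smooth_dv ih h

theorem it_lor (hL : IsLor L) (hf : ContDiff ℝ ∞ f) (h : V) (n : ℕ) :
    (dv h)^[n] (fun x => f (sim 1 L 0 x)) = fun x => (dv (sim 1 L 0 h))^[n] f (sim 1 L 0 x) := by
  induction n with
  | zero => rfl
  | succ n ih =>
    rw [Function.iterate_succ_apply', ih, dv_lor hL (it_smooth hf _ n),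
      Function.iterate_succ_apply']

theorem sim_bas (m : Ix) : sim 1 L 0 (bas m 1) = L m := by
  funext n
  simp [sim, bas]

theorem eta_sq (m : Ix) : eta m * eta m = 1 := by
  unfold eta
  split_ifs <;> norm_num

theorem cols (hL : IsLor L) (k l : Ix) : ∑ m, eta m * L m k * L m l = bas k (eta k) l := by
  have := (isLor_linv hL).1 k l
  have e : ∑ m, eta m * L m k * L m l = eta k * eta l * GF.mdot (linv L k) (linv L l) := by
    rw [GF.mdot, Finset.mul_sum]
    refine Finset.sum_congr rfl fun m _ => ?_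
    simp only [linv]
    linear_combination (-(eta m * L m k * L m l) * (eta l * eta l) * (eta m * eta m)) * eta_sq k -
      (eta m * L m k * L m l) * (eta m * eta m) * eta_sq l - (eta m * L m k * L m l) * eta_sq m
  rw [e, this, bas]
  split_ifs with h
  · rw [h, eta_sq, one_mul]
  · rw [mul_zero]

theorem box_lor (hL : IsLor L) (hf : ContDiff ℝ ∞ f) :
    box (fun x => f (sim 1 L 0 x)) = fun x => box f (sim 1 L 0 x) := funext fun x => by
  have d := fun h => (smooth_pd hf h).differentiable (by simp) (sim 1 L 0 x)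
  have e : ∀ m, pd m (pd m fun x => f (sim 1 L 0 x)) x =
      ∑ l, ∑ k, (L m k : ℂ) * (L m l : ℂ) * pd k (pd l f) (sim 1 L 0 x) := fun m => by
    rw [← dv_bas m, ← dv_bas m, dv_lor hL hf, dv_lor hL (smooth_dv hf _), sim_bas,
      show dv (L m) f = fun x => ∑ l, (L m l : ℂ) * pd l f x from rfl]
    refine (dv_sum (fun l _ => (d l).const_mul _) _).trans ?_
    refine Finset.sum_congr rfl fun l _ => ?_
    rw [dv_cmul, dv, Finset.mul_sum]
    exact Finset.sum_congr rfl fun k _ => by ring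
  simp only [box, e, Finset.mul_sum]
  rw [Finset.sum_comm]
  refine Finset.sum_congr rfl fun l _ => ?_
  rw [Finset.sum_comm]
  have : ∀ k, ∑ m, (eta m : ℂ) * ((L m k : ℂ) * (L m l : ℂ) * pd k (pd l f) (sim 1 L 0 x)) =
      (bas k (eta k) l : ℝ) * pd k (pd l f) (sim 1 L 0 x) := fun k => by
    rw [← cols hL, Complex.ofReal_sum, Finset.sum_mul]
    exact Finset.sum_congr rfl fun m _ => by push_cast; ring
  simp [this, bas, apply_ite Complex.ofReal]

theorem in_lor (hL : IsLor L) (hf : In (sim 1 L 0 '' B) f) : In B fun x => f (sim 1 L 0 x) := by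
  have := in_conf (conf_lor hL) 0 hf
  simp only [add_zero] at this
  exact in_mono this (preimage_image_eq B (conf_lor hL).cle.injective).subset

theorem in_lor' (hL : IsLor L) (hf : In B f) :
    In (sim 1 L 0 '' B) fun x => f (sim 1 (linv L) 0 x) := by
  have := in_conf (conf_lor (isLor_linv hL)) 0 hf
  simp only [add_zero] at this
  exact in_mono this fun z hz => ⟨_, hz, H755.sim_linv hL z⟩

theorem ex_T {K : Set V} (hK : IsCompact K) (h : K ⊆ W0) :
    ∃ T > 0, ∀ z ∈ K, z ∈ Rc T 0 := by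
  have k : ∀ᶠ r in 𝓝 (0 : ℝ), ∀ z ∈ K, z ∈ Rc r 0 := hK.eventually_forall_of_forall_eventually
    fun z hz => by
      obtain ⟨h1, h2⟩ := Chn.mW.1 (h hz)
      filter_upwards [ContinuousAt.eventually_lt (f := fun q : ℝ × V => be q.2) (x₀ := (0, z))
        (by fun_prop) continuousAt_const h1, ContinuousAt.eventually_lt (x₀ := ((0 : ℝ), z))
          (g := fun q : ℝ × V => 1 + 2 * q.1 * be q.2) continuousAt_const (by fun_prop)
            (show (0 : ℝ) < _ by simp),
        ContinuousAt.eventually_lt (x₀ := ((0 : ℝ), z)) (g := fun q : ℝ × V => al q.2 + q.1 * mu q.2)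
          continuousAt_const (by fun_prop) (show (0 : ℝ) < _ by simpa using h2)] with q a b c
      rw [Rc, mem_ofPred_eq, sub_zero]
      exact ⟨a, b, c⟩
  exact ((k.filter_mono nhdsWithin_le_nhds).and (self_mem_nhdsWithin (s := Ioi 0))).exists.imp
    fun _ q => ⟨q.2, q.1⟩

theorem rh_nd {T : ℝ} (hT : 0 < T) {z : V} (hz : z ∈ Rc T 0) (k : ℕ) : 0 < rh (nd T k) z := by
  rw [Rc, mem_ofPred_eq, sub_zero] at hz
  have a : be z < 0 := hz.1
  have b : 0 < 1 + 2 * T * be z := hz.2.1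
  have := nd_le hT k
  simp only [rh]
  nlinarith

theorem open_W (a b : V) : IsOpen (Wdg a b 0) :=
  (isOpen_lt (f := fun x => GF.mdot a (x - 0)) (by fun_prop) continuous_const).inter
    (isOpen_lt (g := fun x => GF.mdot b (x - 0)) continuous_const (by fun_prop))

theorem sim_id (x : V) : sim 1 GF.one 0 x = x := by
  funext n
  simp [sim, GF.one, bas]

/-- **RIG** from the core of step R1 -/
theorem rig_of (r1 : R1C) (ι : Type*) : RIG ι := by
  intro O G h1 h2 h3 h4
  have a : ∀ i, ∃ M : ℕ, ∀ M' ≥ M, ∀ m f, In (O i) f → (pd m)^[M'] f ∈ G i W1 := fun i => by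
    obtain ⟨K, N, k1, k2, k3⟩ := h3 i
    refine ⟨4 * (N + 1), fun M' hM m f hf => h4 i _ fun C c1 c2 => ?_⟩
    have b1 := hf.2.1.isCompact
    have r : Rn (G i C) (dE (tsupport f) (bas m 1) ^ (4 * (N + 1))) := by
      refine r2 ?_ _
      filter_upwards [near (k1.union b1) (open_W _ _) (union_subset k2 (hf.2.2.trans (h1 i).2)),
        near c1 (open_W _ _) c2] with w w1 w2 v
      have hL := isLor_nrt null_vb (md_w w)
      have cL := (conf_lor hL).cont
      obtain ⟨T, T0, hT⟩ := ex_T ((k1.union b1).image cL) (by rintro _ ⟨z, hz, rfl⟩; exact w1 z hz)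
      obtain ⟨j, j1, j2⟩ := k3 _ _ C T hL b1 hf.2.2 T0 (fun z hz => hT _ ⟨z, hz, rfl⟩) w2
      have := r1 _ N (nd T) ((G i C).comap (LinearMap.funLeft ℂ ℂ (sim 1 (nrt vb (tv w)) 0)))
        (fun k => G (j k) W1) (b1.image cL) (fun k _ => ⟨(nd_pos T0 k).ne', fun z hz =>
          rh_nd T0 (hT z (image_mono subset_union_right hz)) k⟩) (fun u hu => by
            have := h2 i C _ c2 (in_mono (in_lor hL hu) hf.2.2)
            rwa [box_lor hL (in_dc hu).1] at this)
        (fun k hk u hu => h2 _ _ u (subset_refl _) (in_mono hu (by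
          rintro _ ⟨_, ⟨z, hz, rfl⟩, rfl⟩; exact j1 k hk z hz))) j2 _ (in_lor' hL v.2)
      have e := it_lor hL (in_dc (in_lor' hL v.2)).1 (nw w) (N + 1)
      simp only [linv_sim _ hL, sim_nw] at e
      rw [dE_pow]
      exact e ▸ this
    have := r.pow hM ⟨f, in_of (in_dc hf) (subset_refl _)⟩
    rwa [dE_pow, show dv (bas m 1) = pd m from funext (dv_bas m)] at this
  choose M hM using a
  intro i f hf
  refine in_ind (P := fun f => f ∈ G i W1) (G i W1).zero_mem (fun f g _ _ => (G i W1).add_mem)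
    (fun x hx => ?_) hf
  obtain ⟨K, N, k1, k2, k3⟩ := h3 i
  obtain ⟨B, b1, b2, b3⟩ := local_compact_nhds ((h1 i).1.mem_nhds hx)
  obtain ⟨T, T0, hT⟩ := ex_T (k1.union b3) (union_subset k2 (b2.trans (h1 i).2))
  obtain ⟨j, j1, j2⟩ := k3 GF.one B W1 T H496.isLor_one b3 b2 T0 (by simpa only [sim_id] using hT)
    (by simp only [sim_id, imp_self, implies_true])
  simp only [sim_id, image_id'] at j1 j2
  have hx' := mem_of_mem_nhds b1
  obtain ⟨U, u1, u2⟩ := r4 (N := N) (M := M i + ∑ k ∈ Finset.range (N + 1), M (j k)) (t := nd T)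
    (O := fun k => O (j k)) (G := G i W1) (G1 := fun k => G (j k) W1) b1
    (fun k hk => ⟨nd_pos T0 k, rh_nd T0 (hT x (Or.inr hx')) k, (h1 _).1.mem_nhds (j1 k hk x hx')⟩)
    (fun m f hf => hM i _ (Nat.le_add_right _ _) m f (in_mono hf b2))
    (fun k hk m f hf => hM _ _ ((Finset.single_le_sum (f := fun k => M (j k))
      (fun _ _ => Nat.zero_le _) (Finset.mem_range.2 (Nat.lt_succ_of_le hk))).trans
        (Nat.le_add_left _ _)) m f hf) j2
  exact ⟨U, u1, fun f hf => u2 f (in_mono hf inter_subset_left)⟩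

end

end Vale.Agent.P352X.EB.NA.Mom
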