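import Vale.Agent.P352NA.MOM.B
import Vale.Agent.P352NA.PE

/-!
# P352NA, block RIG, step R4: polynomial densities that decay vanish
-/

set_option linter.all false

open MeasureTheory Filter Topology Set
open scoped SchwartzMap ContDiff

namespace Vale.Agent.P352X.EB.NA.Mom

open Vale.Agent.P352 Vale.Agent.P352.GF Vale.Agent.P352.H246 Vale.Agent.P352X.Ap
open Vale.Agent.P352.H15
open MvPolynomial (X C pderiv)
open Ch0

noncomputable section

variable {f k : Fn} {Q : Set V} {t : ℝ}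

/-- the components of the special conformal vector field -/
def ck (m : Ix) : Py := 2 * (X 0 - X 1) * X m - (X 0 * X 0 - X 1 * X 1 - X 2 * X 2 - X 3 * X 3) *
  C (va m : ℂ)

theorem evp_ck (m : Ix) (z : V) : evp (ck m) z = cK va z m := by
  simp [evp, ck, cK, md_va, be_eq, mdot_eq z z]

theorem div_ck (z : V) : ∑ m, evp (pderiv m (ck m)) z = 8 * be z := by
  simp [evp, ck, Fin.sum_univ_four, be_eq, va, MvPolynomial.pderiv_X, Pi.single_apply,
    show (2 : Py) = C 2 from rfl]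
  ring

theorem int_Kc (hk : In Q k) : ∫ z, Kc 0 k z = 0 := by
  have e : ∀ z, Kc 0 k z = -((∑ m, evp (ck m) z * pd m k z) +
      ∑ m, evp (pderiv m (ck m)) z * k z) := fun z => by
    rw [← Finset.sum_mul, div_ck]
    simp only [Kc, evp_ck]
    push_cast
    ring
  simp only [e]
  rw [integral_neg, integral_add (integrable_finset_sum _ fun m _ => int_evp _ (in_pd m hk))
    (integrable_finset_sum _ fun m _ => int_evp _ hk),
    integral_finset_sum _ fun m _ => int_evp _ (in_pd m hk),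
    integral_finset_sum _ fun m _ => int_evp _ hk]
  simp [ibp _ hk]

theorem reg_conv (h : Reg t k) {s : ℝ} (hs : s ∈ uIcc 0 t) : Reg s k := fun z hz => by
  have a := h z hz
  simp only [rh] at a ⊢
  rcases le_total 0 (be z) with b | b <;> rcases mem_uIcc.1 hs with ⟨c, d⟩ | ⟨c, d⟩ <;> nlinarith

/-- change of variables -/
theorem cv (hk : Dc k) (h : Reg t k) : ∫ z, pe (-4) t k z = ∫ z, k z := by
  have := intervalIntegral.integral_eq_sub_of_hasDerivAt (f' := fun _ => (0 : ℂ))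
    (f := fun s => SchwartzMap.integralCLM ℂ volume (sch (pe (-4) s k))) (a := 0) (b := t)
    (fun s hs => by
      have i := in_univ (Pe.inn (e := -4) hk (reg_conv h hs)).1
      have := Pe.hasDerivAt (e := -4) hk (SchwartzMap.integralCLM ℂ volume) (reg_conv h hs)
      rwa [SchwartzMap.integralCLM_apply, neg_add_cancel, coe_sch (in_Kc 0 i).1, int_Kc i] at this)
    intervalIntegrable_const
  simp only [SchwartzMap.integralCLM_apply, Pe.pe_zero, coe_sch (dc_sw hk),
    coe_sch (dc_sw (Pe.inn (e := -4) hk h).1), intervalIntegral.integral_zero] at this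
  exact (sub_eq_zero.1 this.symm)

theorem cv2 (p : Py) (hf : Dc f) (h : Reg (-t) f) :
    ∫ z, evp p z * pb 2 (-t) f z = ∫ z, pb 2 t (evp p) z * f z := by
  have i := Pe.inv (e := -2) hf h
  have d := (Pe.inn (e := -2) hf h).1
  have e2 : ∀ s g, pb 2 s g = pe (-2) s g := fun s g => by simpa using (Pe.pe_pb 2).symm
  rw [neg_neg] at i
  simp only [e2]
  rw [← cv (cs_mul_l (evp_smooth p) d) (Pe.reg_mono i.1 tsupport_mul_subset_right)]
  congr 1
  funext z
  have := Pe.pe_mul (e := -2) (e' := -2) (t := t) (z := z) (f := pe (-2) (-t) f) (evp p)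
  rw [i.2] at this
  by_cases hz : 0 < rh t z
  · rw [show (-4 : ℝ) = -2 + -2 by norm_num, this, Pe.pe_pos hz]
  · simp [Pe.pe_neg hz]

/-- the transformed polynomial along a light ray, as a function of the inverse conformal factor -/
def ry (q : Py) (t : ℝ) (z : V) (u : ℝ) : ℂ := ((u ^ 2 : ℝ) : ℂ) *
  evp q (pt (al z - t * d2 (tx z) (tx z) * u) ((1 - u) / (2 * t)) (u • tx z))

theorem ry_eq (q : Py) (ht : 0 < t) {z : V} {s : ℝ} (h : 0 < rh t z + 2 * t * s) :
    pb 2 t (evp q) (z + s • vb) = ry q t z (rh t z + 2 * t * s)⁻¹ := by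
  have e : rh t (z + s • vb) = rh t z + 2 * t * s := by
    simp [rh]
    ring
  rw [pb, e, if_pos h, ry, cph, e]
  congr 3
  · simp [div_eq_mul_inv]
  · have := h.ne'
    have e1 : be z + s = (rh t z + 2 * t * s - 1) / (2 * t) := by
      field_simp
      simp only [rh]
      ring
    simp only [be_add, be_smul, be_vb, mul_one]
    rw [e1]
    generalize rh t z + 2 * t * s = R at this
    field_simp
  · simp

theorem an_evp (q : Py) {c : ℝ → V} {s : ℝ} (h : ∀ i, AnalyticAt ℝ (fun s => c s i) s) :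
    AnalyticAt ℝ (fun s => evp q (c s)) s :=
  AnalyticAt.aeval_mvPolynomial (f := fun s i => (c s i : ℂ))
    (fun i => (Complex.ofRealCLM.analyticAt _).comp (h i)) q

theorem ry_an (q : Py) (t : ℝ) (z : V) (u : ℝ) : AnalyticAt ℝ (ry q t z) u := by
  refine ((Complex.ofRealCLM.analyticAt _).comp (f := fun u : ℝ => u ^ 2) (x := u)
    (by fun_prop)).mul (an_evp q fun i => ?_)
  fin_cases i <;> simp [pt] <;> fun_prop

theorem ry_lim (q : Py) (ht : 0 < t) (z : V) :
    Tendsto (fun s => ry q t z (rh t z + 2 * t * s)⁻¹) atTop (𝓝 0) := by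
  have a : Tendsto (fun s => (rh t z + 2 * t * s)⁻¹) atTop (𝓝 0) :=
    (tendsto_atTop_add_const_left _ _ (tendsto_id.const_mul_atTop (by positivity))).inv_tendsto_atTop
  have b := (ry_an q t z 0).continuousAt.tendsto.comp a
  rwa [show ry q t z 0 = 0 by simp [ry]] at b

theorem poly_lim (p : Py) (z : V) (h : Tendsto (fun s : ℝ => evp p (z + s • vb)) atTop (𝓝 0)) :
    evp p z = 0 := by
  set P : Polynomial ℂ := MvPolynomial.aeval
    (fun i => Polynomial.C (z i : ℂ) + Polynomial.C (vb i : ℂ) * Polynomial.X) p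
  have e : ∀ s : ℝ, evp p (z + s • vb) = P.eval (s : ℂ) := fun s => by
    rw [← Polynomial.coe_aeval_eq_eval, MvPolynomial.comp_aeval_apply]
    refine congrArg (fun v => MvPolynomial.eval v p) (funext fun i => ?_)
    simp
    ring
  simp only [e] at h
  rcases lt_or_ge 0 P.degree with d | d
  · have := P.tendsto_norm_atTop d (l := atTop) (z := fun s : ℝ => (s : ℂ))
      (by simpa using tendsto_abs_atTop_atTop)
    exact (not_tendsto_atTop_of_tendsto_nhds h.norm this).elim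
  · have e0 := e 0
    rw [Polynomial.eq_C_of_degree_le_zero d] at h e0
    simp only [Polynomial.eval_C] at h e0
    simpa [tendsto_const_nhds_iff.1 h] using e0

theorem decay {ι : Type*} (S : Finset ι) {t : ι → ℝ} (p : Py) (q : ι → Py) (hQ : IsOpen Q)
    (ht : ∀ k ∈ S, 0 < t k ∧ ∀ z ∈ Q, 0 < rh (t k) z)
    (h : ∀ z ∈ Q, evp p z = ∑ k ∈ S, pb 2 (t k) (evp (q k)) z) : ∀ z ∈ Q, evp p z = 0 := by
  intro z hz
  have pos : ∀ k ∈ S, ∀ s ∈ Ici (0 : ℝ), 0 < rh (t k) z + 2 * t k * s := fun k hk s hs =>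
    add_pos_of_pos_of_nonneg ((ht k hk).2 z hz) (mul_nonneg (by linarith [(ht k hk).1]) hs)
  have a1 : AnalyticOnNhd ℝ (fun s : ℝ => evp p (z + s • vb)) (Ici 0) := fun s _ =>
    an_evp p fun i => by simp only [Pi.add_apply, Pi.smul_apply, smul_eq_mul]; fun_prop
  have a2 : AnalyticOnNhd ℝ (fun s : ℝ => ∑ k ∈ S, ry (q k) (t k) z (rh (t k) z + 2 * t k * s)⁻¹)
      (Ici 0) := fun s hs => Finset.analyticAt_fun_sum _ fun k hk =>
    (ry_an _ _ _ _).comp (AnalyticAt.inv (by fun_prop) (pos k hk s hs).ne')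
  have c : Continuous fun s : ℝ => z + s • vb := by fun_prop
  have e := a1.eqOn_of_preconnected_of_eventuallyEq a2 isPreconnected_Ici (mem_Ici.2 le_rfl) (by
    filter_upwards [c.continuousAt.eventually_mem (x := 0) (by simpa using hQ.mem_nhds hz)] with s hs
    rw [h _ hs]
    refine Finset.sum_congr rfl fun k hk => ry_eq _ (ht k hk).1 ?_
    have := (ht k hk).2 _ hs
    simp only [rh, be_add, be_smul, be_vb] at this ⊢
    linarith)
  refine poly_lim p z (Tendsto.congr' ((eventually_ge_atTop 0).mono fun s hs => (e hs).symm) ?_)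
  simpa using tendsto_finset_sum S fun k hk => ry_lim (q k) (ht k hk).1 z

/-- the test functions in `Q` -/
def DQ (Q : Set V) : Submodule ℂ Fn where
  carrier := {f | In Q f}
  add_mem' := in_add
  zero_mem' := in_zero
  smul_mem' c _ := in_cmul c

/-- the pull back as a linear map -/
def pbL (j : ℕ) (t : ℝ) : Fn →ₗ[ℂ] Fn where
  toFun := pb j t
  map_add' f g := funext fun z => by
    simp only [pb, Pi.add_apply]
    split_ifs
    · ring
    · simp
  map_smul' c f := funext fun z => by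
    simp only [pb, Pi.smul_apply, smul_eq_mul, RingHom.id_apply]
    split_ifs
    · ring
    · simp

theorem li_lin (Λ : Fn →ₗ[ℂ] ℂ) : Li Q Λ := fun f g c _ _ => by
  rw [show (fun x => f x + c * g x) = f + c • g from rfl, map_add, map_smul, smul_eq_mul]

theorem factor {ι : Type} [Fintype ι] [DecidableEq ι] (A : ι → Fn →ₗ[ℂ] Fn)
    (G : ι → Submodule ℂ Fn) (Λ : Fn →ₗ[ℂ] ℂ) (h : ∀ f, In Q f → (∀ k, A k f ∈ G k) → Λ f = 0) :
    ∃ l : ι → Fn →ₗ[ℂ] ℂ, (∀ k, ∀ g ∈ G k, l k g = 0) ∧ ∀ f, In Q f → Λ f = ∑ k, l k (A k f) := by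
  set Φ : DQ Q →ₗ[ℂ] ∀ k, Fn ⧸ G k := LinearMap.pi fun k => (G k).mkQ ∘ₗ A k ∘ₗ (DQ Q).subtype
  have m : Λ ∘ₗ (DQ Q).subtype ∈ LinearMap.range Φ.dualMap := by
    rw [LinearMap.range_dualMap_eq_dualAnnihilator_ker, Submodule.mem_dualAnnihilator]
    exact fun w hw => h w w.2 fun k =>
      (Submodule.Quotient.mk_eq_zero _).1 (congrFun (LinearMap.mem_ker.1 hw) k)
  obtain ⟨μ, hμ⟩ := m
  refine ⟨fun k => μ ∘ₗ LinearMap.single ℂ _ k ∘ₗ (G k).mkQ, fun k g hg => ?_, fun f hf => ?_⟩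
  · simp [(Submodule.Quotient.mk_eq_zero _).2 hg]
  · have : μ (Φ ⟨f, hf⟩) = Λ f := congrArg (fun l => l ⟨f, hf⟩) hμ
    rw [← this, ← Finset.univ_sum_single (Φ ⟨f, hf⟩), map_sum]
    rfl

theorem cont_cph {z : V} (h : 0 < rh t z) : ContinuousAt (cph t) z :=
  (smooth_cph (q := (t, z)) h.ne').continuousAt.comp (f := fun z : V => (t, z)) (by fun_prop)

theorem cont_rh : Continuous (rh t) := by unfold rh; fun_prop

theorem cont_pb (j : ℕ) {u : Fn} (hu : Continuous u) (h : ∀ z ∈ Q, 0 < rh t z) :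
    ContinuousOn (pb j t u) Q := by
  refine ContinuousOn.congr (f := fun z => (((rh t z)⁻¹ ^ j : ℝ) : ℂ) * u (cph t z))
    (fun z hz => ContinuousAt.continuousWithinAt ?_) fun z hz => if_pos (h z hz)
  exact (Complex.continuous_ofReal.continuousAt.comp
    ((cont_rh.continuousAt.inv₀ (h z hz).ne').pow j)).mul
      (hu.continuousAt.comp (cont_cph (h z hz)))

/-- **R4** -/
theorem r4 {x : V} {U : Set V} {N M : ℕ} {t : ℕ → ℝ} {O : ℕ → Set V} {G : Submodule ℂ Fn}
    {G1 : ℕ → Submodule ℂ Fn} (hU : U ∈ 𝓝 x)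
    (ht : ∀ k ≤ N, 0 < t k ∧ 0 < rh (t k) x ∧ O k ∈ 𝓝 (cph (t k) x))
    (h0 : ∀ i f, In U f → (pd i)^[M] f ∈ G)
    (h1 : ∀ k ≤ N, ∀ i f, In (O k) f → (pd i)^[M] f ∈ G1 k)
    (h2 : ∀ h, In U h → (∀ k ≤ N, pb 2 (-t k) h ∈ G1 k) → h ∈ G) :
    ∃ U1 ∈ 𝓝 x, ∀ f, In U1 f → f ∈ G := by
  have hk : ∀ k : Fin (N + 1), (k : ℕ) ≤ N := fun k => Nat.lt_succ_iff.1 k.2
  choose r r0 hr using fun k : Fin (N + 1) => Metric.mem_nhds_iff.1 (ht k (hk k)).2.2
  obtain ⟨R, R0, hR⟩ := Metric.mem_nhds_iff.1 (inter_mem hU (eventually_all.2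
    fun k : Fin (N + 1) => (continuousAt_const.eventually_lt cont_rh.continuousAt
      (ht k (hk k)).2.1).and ((cont_cph (ht k (hk k)).2.1).eventually_mem
        (Metric.ball_mem_nhds _ (r0 k)))))
  have sub : Metric.ball x R ⊆ U := fun z hz => (hR hz).1
  refine ⟨_, Metric.ball_mem_nhds x R0, fun f hf => by_contra fun hn => ?_⟩
  obtain ⟨Λ, l1, l2⟩ := G.exists_dual_map_eq_bot_of_notMem hn inferInstance
  have l3 : ∀ g ∈ G, Λ g = 0 := fun g hg =>
    (Submodule.mem_bot ℂ).1 (l2 ▸ Submodule.mem_map_of_mem hg)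
  obtain ⟨l, m1, m2⟩ := factor (Q := Metric.ball x R) (fun k : Fin (N + 1) => pbL 2 (-t k))
    (fun k => G1 k) Λ fun g hg a => l3 g (h2 g (in_mono hg sub) fun k hk => a ⟨k, by omega⟩)
  obtain ⟨p, hp⟩ := mom (convex_ball x R) Metric.isOpen_ball M (li_lin Λ) fun i g hg =>
    l3 _ (h0 i g (in_mono hg sub))
  choose q hq using fun k : Fin (N + 1) => mom (convex_ball (cph (t k) x) (r k))
    Metric.isOpen_ball M (li_lin (l k)) fun i g hg => m1 k _ (h1 k (hk k) i g (in_mono hg (hr k)))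
  have pos : ∀ k : Fin (N + 1), ∀ z ∈ Metric.ball x R, 0 < rh (t k) z := fun k z hz =>
    ((hR hz).2 k).1
  have cq := fun k => cont_pb 2 (evp_smooth (q k)).continuous (pos k)
  have z := decay Finset.univ p q Metric.isOpen_ball (fun k _ => ⟨(ht k (hk k)).1, pos k⟩)
    fun z hz => sub_eq_zero.1 (dens_zero
      (u := fun z => evp p z - ∑ k : Fin (N + 1), pb 2 (t k) (evp (q k)) z)
      Metric.isOpen_ball ((evp_smooth p).continuous.continuousOn.sub
        (continuousOn_finset_sum _ fun k _ => cq k)) (fun g hg => ?_) z hz)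
  · refine l1 ?_
    rw [hp f hf, evp_zero Metric.isOpen_ball (Metric.mem_ball_self R0) z]
    simp [evp]
  have rg : ∀ k : Fin (N + 1), Reg (-t k) g := fun k z hz => by
    rw [neg_neg]
    exact pos k z (hg.2.2 hz)
  have ig : ∀ k : Fin (N + 1), Integrable fun z => pb 2 (t k) (evp (q k)) z * g z := fun k => by
    rw [← integrableOn_iff_integrable_of_support_subset (s := tsupport g)
      fun z hz => subset_tsupport _ (right_ne_zero_of_mul hz)]
    exact (((cq k).mono hg.2.2).mul (in_dc hg).1.continuous.continuousOn).integrableOn_compact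
      hg.2.1.isCompact
  simp only [sub_mul, Finset.sum_mul]
  rw [integral_sub (int_evp p hg) (integrable_finset_sum _ fun k _ => ig k),
    integral_finset_sum _ fun k _ => ig k, ← hp g hg, m2 g hg, sub_eq_zero]
  refine Finset.sum_congr rfl fun k _ => ?_
  rw [← cv2 _ (in_dc hg) (rg k)]
  refine hq k _ (in_of (inn (in_dc hg) (rg k)).1 ((inn (in_dc hg) (rg k)).2.trans ?_))
  rintro _ ⟨y, a, rfl⟩
  rw [neg_neg]
  exact ((hR (hg.2.2 a)).2 k).2

end

end Vale.Agent.P352X.EB.NA.Mom
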